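import Vale.Agent.Snaky.Forced

namespace Vale.Agent.Snaky

/-- A cell outside a given finite set. -/
noncomputable def freshCell (A : Finset Cell) : Cell := (Infinite.exists_notMem_finset A).choose

lemma freshCell_spec (A : Finset Cell) : freshCell A ∉ A :=
  (Infinite.exists_notMem_finset A).choose_spec

/-- The state of a play in which Breaker always claims a fresh cell: the list of Breaker moves and
the set of all cells claimed so far. -/
noncomputable def freshState (σ : List Cell → Cell) : ℕ → List Cell × Finset Cell
  | 0 => ([], ∅)
  | k + 1 =>
    let st := freshState σ k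
    let x := freshCell (insert (σ st.1) st.2)
    (st.1 ++ [x], insert x (insert (σ st.1) st.2))

/-- Breaker's move at turn `k` in that play. -/
noncomputable def freshMove (σ : List Cell → Cell) (k : ℕ) : Cell :=
  freshCell (insert (σ (freshState σ k).1) (freshState σ k).2)

lemma freshState_fst (σ : List Cell → Cell) (k : ℕ) :
    (freshState σ k).1 = (List.range k).map (freshMove σ) := by
  induction k with
  | zero => rfl
  | succ k ih =>
    rw [List.range_succ, List.map_append, ← ih]
    rfl

lemma freshState_snd (σ : List Cell → Cell) (k : ℕ) :
    ∀ j < k, σ (freshState σ j).1 ∈ (freshState σ k).2 ∧ freshMove σ j ∈ (freshState σ k).2 := by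
  induction k with
  | zero => intro j hj; omega
  | succ k ih =>
    intro j hj
    have hstep : (freshState σ (k + 1)).2 =
        insert (freshMove σ k) (insert (σ (freshState σ k).1) (freshState σ k).2) := rfl
    rcases Nat.lt_succ_iff_lt_or_eq.mp hj with h | rfl
    · obtain ⟨h1, h2⟩ := ih j h
      rw [hstep]
      exact ⟨by simp [h1], by simp [h2]⟩
    · rw [hstep]
      exact ⟨by simp, by simp⟩

/-- For every strategy of Maker there are legal plays of Breaker: the notion of winning is not
vacuous. -/
theorem exists_legal (σ : List Cell → Cell) : ∃ β, LegalBreaker σ β := by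
  refine ⟨freshMove σ, fun k => ?_⟩
  have hspec := freshCell_spec (insert (σ (freshState σ k).1) (freshState σ k).2)
  have hm : ∀ j, makerMove σ (freshMove σ) j = σ (freshState σ j).1 := by
    intro j
    rw [freshState_fst]
    rfl
  constructor
  · intro hmem
    simp only [makerCells, Finset.mem_image, Finset.mem_range] at hmem
    obtain ⟨j, hj, hjeq⟩ := hmem
    apply hspec
    rw [hm] at hjeq
    rcases Nat.lt_succ_iff_lt_or_eq.mp hj with h | rfl
    · have := (freshState_snd σ k j h).1
      rw [hjeq] at this
      exact Finset.mem_insert_of_mem this
    · show freshMove σ j ∈ _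
      rw [← hjeq]; exact Finset.mem_insert_self _ _
  · intro hmem
    simp only [breakerCells, Finset.mem_image, Finset.mem_range] at hmem
    obtain ⟨j, hj, hjeq⟩ := hmem
    apply hspec
    have := (freshState_snd σ k j hj).2
    rw [hjeq] at this
    exact Finset.mem_insert_of_mem this

end Vale.Agent.Snaky
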