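import Vale.Agent.Snaky.Reduce

/-!
Reduction of the whole game to the position with two Maker cells and two Breaker cells.
-/

namespace Vale.Agent.Snaky

/-- Maker's cells in the position with two cells each. -/
def twoM : Finset Cell := {((0 : ℤ), (0 : ℤ)), ((0 : ℤ), (1 : ℤ))}

/-- Breaker's cells in the position with two cells each. -/
def twoB : Finset Cell := {((1 : ℤ), (0 : ℤ)), ((0 : ℤ), (2 : ℤ))}

theorem forced_line1_two {K : ℕ} (hK : 13 ≤ K) (h : ForcedIn K twoM twoB) :
    ForcedIn (K + 1) {((0 : ℤ), (0 : ℤ))} {((1 : ℤ), (0 : ℤ))} := by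
  refine ⟨((0 : ℤ), (1 : ℤ)), by decide, by decide, Or.inr ?_⟩
  intro b _ _
  have hM : insert ((0 : ℤ), (1 : ℤ)) ({((0 : ℤ), (0 : ℤ))} : Finset Cell) =
      {((0 : ℤ), (0 : ℤ)), ((0 : ℤ), (1 : ℤ))} := by
    ext c; simp only [Finset.mem_insert, Finset.mem_singleton]; tauto
  have hB : insert b ({((1 : ℤ), (0 : ℤ))} : Finset Cell) = {((1 : ℤ), (0 : ℤ)), b} := by
    ext c; simp only [Finset.mem_insert, Finset.mem_singleton]; tauto
  rw [hM, hB]
  by_cases hb : b = ((0 : ℤ), (2 : ℤ))
  · subst hb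
    exact h
  · exact ForcedIn.mono (by omega) (line1_replies b hb)

/-- A forced win in the two-cell position gives a forced win from the empty board. -/
theorem forced_root_two {K : ℕ} (hK : 13 ≤ K) (h : ForcedIn K twoM twoB) :
    ForcedIn (K + 2) ∅ ∅ := by
  have h1 := forced_line1_two hK h
  obtain ⟨h2, h3, h4⟩ := forced_adjacent h1
  refine ⟨((0 : ℤ), (0 : ℤ)), by simp, by simp, Or.inr ?_⟩
  intro b hb0 _
  have hM : insert ((0 : ℤ), (0 : ℤ)) (∅ : Finset Cell) = {((0 : ℤ), (0 : ℤ))} := rfl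
  have hB : insert b (∅ : Finset Cell) = {b} := rfl
  rw [hM, hB]
  have hb1 : b ≠ ((0 : ℤ), (0 : ℤ)) := by
    intro hc; apply hb0; rw [hc]; simp
  by_cases hnear : b ∈ nearCells3
  · simp only [nearCells3, Finset.mem_insert, Finset.mem_singleton] at hnear
    rcases hnear with rfl | rfl | rfl | rfl
    · exact h2
    · exact h4
    · exact h3
    · exact h1
  · exact ForcedIn.mono (by omega) (far3_replies b hnear)

end Vale.Agent.Snaky
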